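import Vale.Agent.P281.H713.KD.Iface
import Vale.Agent.P281.H949.GM.Curv

/-!
# P281, theorem KD: local formulas for `i∂∂̄ log (r + ε) + R`
-/

open scoped Manifold ContDiff Topology ComplexOrder
open Set Filter Vale.Agent.P281.J Vale.Agent.P272.K Vale.Agent.P272.K.AMP Vale.Agent.P299
open Vale.Agent.P299.H882 (J xi qf)
open Vale.Agent.P272.K.INT (IsClosedForm)
open Matrix (vecMulVec)

set_option linter.all false

noncomputable section

namespace Vale.Agent.P281.H455.KD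

open Vale.Agent.P281.H713 Vale.Agent.P281.H713.SA Vale.Agent.P281.H716
open Vale.Agent.P281.H713.KD
open Vale.Agent.P299.H223

variable {n : ℕ} {g : Cm n → ℂ} {ψ : Cm n → ℝ} {z : Cm n} {ε : ℝ}

/-- `|g|² + ε exp ψ` -/
def uv (g : Cm n → ℂ) (ψ : Cm n → ℝ) (ε : ℝ) (y : Cm n) : ℝ := ‖g y‖ ^ 2 + ε * Real.exp (ψ y)

lemma uv_pos (hε : 0 < ε) (y : Cm n) : 0 < uv g ψ ε y :=
  add_pos_of_nonneg_of_pos (by positivity) (by positivity)

/-- the covector `∂g - g ∂ψ` -/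
def cov (g : Cm n → ℂ) (ψ : Cm n → ℝ) (z : Cm n) : Fin n → ℂ :=
  fun j => dz j g z - g z * dz j (fun y => (ψ y : ℂ)) z

lemma smooth_normsq (hg : AnalyticAt ℂ g z) : ContDiffAt ℝ ∞ (fun y => ‖g y‖ ^ 2) z := by
  have h1 : ContDiffAt ℂ ω g z := hg.contDiffAt
  have h : ContDiffAt ℝ ∞ g z := (h1.restrict_scalars ℝ).of_le (by simp)
  exact h.norm_sq ℝ

lemma smooth_uv (hg : AnalyticAt ℂ g z) (hψ : ContDiffAt ℝ ∞ ψ z) :
    ContDiffAt ℝ ∞ (uv g ψ ε) z :=
  (smooth_normsq hg).add (contDiffAt_const.mul hψ.exp)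

/-- the exact formula -/
theorem cHess_log_uv (hg : AnalyticAt ℂ g z) (hψ : ContDiffAt ℝ ∞ ψ z) (hε : 0 < ε) :
    cHess (fun y => Real.log (uv g ψ ε y)) z =
      ((ε * Real.exp (ψ z) / uv g ψ ε z : ℝ) : ℂ) • cHess ψ z +
      ((ε * Real.exp (ψ z) / uv g ψ ε z ^ 2 : ℝ) : ℂ) •
        vecMulVec (cov g ψ z) (star (cov g ψ z)) := by
  set E : ℝ := ε * Real.exp (ψ z) with hE
  have hE0 : 0 < E := by positivity
  set c : Cm n → Fin 1 → ℂ := fun y _ => g y with hcdef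
  have hc : ContDiffAt ℂ ω c z := contDiffAt_pi.2 fun _ => hg.contDiffAt
  have hnc : ∀ y, nsq (c y) = ‖g y‖ ^ 2 := fun y => by simp [nsq, hcdef]
  have hψ2 : ContDiffAt ℝ 2 ψ z := hψ.of_le (by exact WithTop.coe_le_coe.2 le_top)
  have hψd : DifferentiableAt ℝ ψ z := hψ2.differentiableAt (by norm_num)
  have hN2 : ContDiffAt ℝ 2 (fun y => nsq (c y)) z :=
    (smooth_nsq hc).of_le (by exact WithTop.coe_le_coe.2 le_top)
  have hF : ∀ s : ℝ, HasDerivAt (fun t : ℝ => ε * Real.exp t) (ε * Real.exp s) s := fun s =>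
    (Real.hasDerivAt_exp s).const_mul ε
  have hE2 : ContDiffAt ℝ 2 (fun y => ε * Real.exp (ψ y)) z := contDiffAt_const.mul hψ2.exp
  have hu2 : ContDiffAt ℝ 2 (uv g ψ ε) z :=
    (smooth_uv hg hψ).of_le (by exact WithTop.coe_le_coe.2 le_top)
  have d1 : ∀ j, dz j (fun y => ((ε * Real.exp (ψ y) : ℝ) : ℂ)) z =
      E * dz j (fun y => (ψ y : ℂ)) z := fun j => by
    rw [C2.dz_comp_real (ψ := fun t => ε * Real.exp t) j (hF (ψ z)) hψd]
  have d2 : ∀ k, dzb k (fun y => ((ε * Real.exp (ψ y) : ℝ) : ℂ)) z =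
      E * cj (dz k (fun y => (ψ y : ℂ)) z) := fun k => by
    rw [C2.dzb_comp_real (ψ := fun t => ε * Real.exp t) k (hF (ψ z)) hψd, C2.dzb_real k hψd]
  have d3 : ∀ j k, cHess (fun y => ε * Real.exp (ψ y)) z j k =
      E * cHess ψ z j k + E * (dz j (fun y => (ψ y : ℂ)) z *
        cj (dz k (fun y => (ψ y : ℂ)) z)) := fun j k => by
    rw [C2.cHess_comp (ψ := fun t => ε * Real.exp t) (ψ₁ := fun t => ε * Real.exp t)
      (Eventually.of_forall hF) (hF (ψ z)) hψ2 j k, C2.dzb_real k hψd]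
  have hdN : DifferentiableAt ℝ (fun y => ((nsq (c y) : ℝ) : ℂ)) z :=
    (ofReal_contDiffAt hN2).differentiableAt (by norm_num)
  have hdE : DifferentiableAt ℝ (fun y => ((ε * Real.exp (ψ y) : ℝ) : ℂ)) z :=
    (ofReal_contDiffAt hE2).differentiableAt (by norm_num)
  have hsplit : (fun y => ((uv g ψ ε y : ℝ) : ℂ)) = fun y => ((nsq (c y) : ℝ) : ℂ) +
      ((ε * Real.exp (ψ y) : ℝ) : ℂ) := by
    funext y
    rw [uv, Complex.ofReal_add, hnc]
  ext j k
  have hu0 : 0 < uv g ψ ε z := uv_pos hε z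
  have hgg : g z * (starRingEnd ℂ) (g z) = ((‖g z‖ ^ 2 : ℝ) : ℂ) := by
    rw [Complex.mul_conj, Complex.normSq_eq_norm_sq]
  have huz : ((uv g ψ ε z : ℝ) : ℂ) = g z * (starRingEnd ℂ) (g z) + (E : ℂ) := by
    rw [hgg, uv, Complex.ofReal_add]
  have hne : ((uv g ψ ε z : ℝ) : ℂ) ≠ 0 := by exact_mod_cast hu0.ne'
  rw [C2.cHess_log hu2 hu0, hsplit, dz_add hdN hdE, dzb_add hdN hdE, d1, d2, dz_nsq hc, dzb_nsq hc]
  have h1 : cHess (uv g ψ ε) z j k = cHess (fun y => nsq (c y)) z j k +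
      cHess (fun y => ε * Real.exp (ψ y)) z j k := by
    have h2 := congrFun (congrFun (cHess_add hN2 hE2) j) k
    have h3 : uv g ψ ε = fun y => nsq (c y) + ε * Real.exp (ψ y) := by
      funext y; rw [uv, hnc]
    rw [h3]
    exact h2
  rw [h1, cHess_nsq hc, d3]
  simp only [Finset.univ_unique, Finset.sum_singleton, Matrix.add_apply, Matrix.smul_apply,
    smul_eq_mul, Matrix.vecMulVec_apply, Pi.star_apply, RCLike.star_def, cov, map_sub, map_mul,
    hcdef, cj]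
  push_cast
  rw [huz] at hne ⊢
  field_simp
  ring

section

variable {X : Type} [TopologicalSpace X] [ChartedSpace (Cm n) X] {r : X → ℝ} {R : D.FormM n X}
  {e : Chart n X} {x : X}

/-- `exp (-ψ/2) (∂g - g ∂ψ)` -/
def cv (g : Cm n → ℂ) (ψ : Cm n → ℝ) (z : Cm n) : Fin n → ℂ :=
  ((Real.exp (-ψ z / 2) : ℝ) : ℂ) • cov g ψ z

lemma vec_smul (t : ℝ) (v : Fin n → ℂ) :
    vecMulVec ((t : ℂ) • v) (star ((t : ℂ) • v)) = ((t ^ 2 : ℝ) : ℂ) • vecMulVec v (star v) := by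
  ext i j
  simp only [Matrix.vecMulVec_apply, Pi.smul_apply, Pi.star_apply, smul_eq_mul, RCLike.star_def,
    map_mul, Complex.conj_ofReal, Matrix.smul_apply]
  push_cast
  ring

lemma vec_cv : vecMulVec (cv g ψ z) (star (cv g ψ z)) =
    ((Real.exp (-ψ z) : ℝ) : ℂ) • vecMulVec (cov g ψ z) (star (cov g ψ z)) := by
  rw [cv, vec_smul, ← Real.exp_nat_mul]
  congr 3
  push_cast
  ring

/-- the form `i∂∂̄ log (r + ε) + R` -/
theorem dF_eq (hx : At e x) (hg : AnalyticAt ℂ g (e x)) (hψ : ContDiffAt ℝ ∞ ψ (e x))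
    (hr : ∀ᶠ y in 𝓝 (e x), r (e.symm y) = ‖g y‖ ^ 2 * Real.exp (-ψ y) ∧ R e y = cHess ψ y)
    (hε : 0 < ε) : dF r R ε e (e x) = ((ε / (r x + ε) : ℝ) : ℂ) • R e (e x) +
      ((ε / (r x + ε) ^ 2 : ℝ) : ℂ) • vecMulVec (cv g ψ (e x)) (star (cv g ψ (e x))) := by
  have h1 : cHess (fun y => Real.log (r (e.symm y) + ε)) (e x) =
      cHess (fun y => Real.log (uv g ψ ε y) - ψ y) (e x) := by
    refine C2.cHess_congr ?_
    filter_upwards [hr] with y hy
    have h2 : r (e.symm y) + ε = uv g ψ ε y * Real.exp (-ψ y) := by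
      rw [hy.1, uv, add_mul, mul_assoc ε, ← Real.exp_add]
      simp
    rw [h2, Real.log_mul (uv_pos hε y).ne' (Real.exp_ne_zero _), Real.log_exp]
    ring
  have hψ2 : ContDiffAt ℝ 2 ψ (e x) := hψ.of_le (by exact WithTop.coe_le_coe.2 le_top)
  have hu2 : ContDiffAt ℝ 2 (fun y => Real.log (uv g ψ ε y)) (e x) :=
    ((smooth_uv hg hψ).of_le (by exact WithTop.coe_le_coe.2 le_top)).log (uv_pos hε _).ne'
  have hr0 := hr.self_of_nhds
  rw [hx.left_inv] at hr0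
  have hru : r x + ε = uv g ψ ε (e x) * Real.exp (-ψ (e x)) := by
    rw [hr0.1, uv, add_mul, mul_assoc ε, ← Real.exp_add]
    simp
  have hu0 := uv_pos (g := g) (ψ := ψ) hε (e x)
  have hE : Real.exp (-ψ (e x)) * Real.exp (ψ (e x)) = 1 := by
    rw [← Real.exp_add]; simp
  have hEp := Real.exp_pos (-ψ (e x))
  show cHess (fun y => Real.log (r (e.symm y) + ε)) (e x) + R e (e x) = _
  rw [h1, C2.cHess_sub hu2 hψ2, cHess_log_uv hg hψ hε, hr0.2, vec_cv, smul_smul,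
    ← Complex.ofReal_mul]
  have e1 : ε * Real.exp (ψ (e x)) / uv g ψ ε (e x) = ε / (r x + ε) := by
    rw [hru, div_eq_div_iff hu0.ne' (by positivity)]
    linear_combination (ε * uv g ψ ε (e x)) * hE
  have e2 : ε * Real.exp (ψ (e x)) / uv g ψ ε (e x) ^ 2 =
      ε / (r x + ε) ^ 2 * Real.exp (-ψ (e x)) := by
    rw [hru, div_mul_eq_mul_div, div_eq_div_iff (by positivity) (by positivity)]
    linear_combination (ε * uv g ψ ε (e x) ^ 2 * Real.exp (-ψ (e x))) * hE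
  rw [e1, e2]
  abel

/-- `∂ log r` where `r > 0` -/
theorem vec_log (hx : At e x) (hg : AnalyticAt ℂ g (e x)) (hψ : ContDiffAt ℝ ∞ ψ (e x))
    (hr : ∀ᶠ y in 𝓝 (e x), r (e.symm y) = ‖g y‖ ^ 2 * Real.exp (-ψ y)) (h0 : 0 < r x) :
    vecMulVec (cv g ψ (e x)) (star (cv g ψ (e x))) = ((r x : ℝ) : ℂ) •
      vecMulVec (xi (fun y => Real.log (r y)) e (e x))
        (star (xi (fun y => Real.log (r y)) e (e x))) := by
  have hr0 := hr.self_of_nhds
  rw [hx.left_inv] at hr0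
  have hg0 : g (e x) ≠ 0 := by
    intro h
    rw [hr0, h] at h0
    simp at h0
  have hgd : DifferentiableAt ℂ g (e x) := hg.differentiableAt
  have hψd : DifferentiableAt ℝ ψ (e x) := hψ.differentiableAt (by simp)
  set c : Cm n → Fin 1 → ℂ := fun y _ => g y with hcdef
  have hc : ContDiffAt ℂ ω c (e x) := contDiffAt_pi.2 fun _ => hg.contDiffAt
  have hnc : ∀ y, nsq (c y) = ‖g y‖ ^ 2 := fun y => by simp [nsq, hcdef]
  have hN2 : ContDiffAt ℝ 2 (fun y => nsq (c y)) (e x) :=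
    (smooth_nsq hc).of_le (by exact WithTop.coe_le_coe.2 le_top)
  have hNd : DifferentiableAt ℝ (fun y => nsq (c y)) (e x) := hN2.differentiableAt (by norm_num)
  have hnp : 0 < nsq (c (e x)) := by rw [hnc]; positivity
  have hxi : xi (fun y => Real.log (r y)) e (e x) = (g (e x))⁻¹ • cov g ψ (e x) := by
    funext j
    have h1 : (fun y => ((Real.log (r (e.symm y)) : ℝ) : ℂ)) =ᶠ[𝓝 (e x)]
        fun y => ((Real.log (nsq (c y)) : ℝ) : ℂ) - ((ψ y : ℝ) : ℂ) := by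
      have h2 : ∀ᶠ y in 𝓝 (e x), g y ≠ 0 := hg.continuousAt.eventually_ne hg0
      filter_upwards [hr, h2] with y hy hy2
      have h3 : (0 : ℝ) < ‖g y‖ ^ 2 := by positivity
      rw [hy, hnc, Real.log_mul h3.ne' (Real.exp_ne_zero _), Real.log_exp]
      push_cast
      ring
    have hld : DifferentiableAt ℝ (fun y => ((Real.log (nsq (c y)) : ℝ) : ℂ)) (e x) :=
      C2.differentiableAt_ofReal (hNd.log hnp.ne')
    show dz j (fun y => ((Real.log (r (e.symm y)) : ℝ) : ℂ)) (e x) = _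
    rw [dz_congr h1, dz_sub hld (C2.differentiableAt_ofReal hψd),
      C2.dz_comp_real (ψ := Real.log) j (Real.hasDerivAt_log hnp.ne') hNd, dz_nsq hc]
    have hgg : ((nsq (c (e x)) : ℝ) : ℂ) = g (e x) * (starRingEnd ℂ) (g (e x)) := by
      rw [Complex.mul_conj, Complex.normSq_eq_norm_sq, hnc]
    have hcg : (starRingEnd ℂ) (g (e x)) ≠ 0 := by simpa using hg0
    rw [Complex.ofReal_inv, hgg]
    simp only [Finset.univ_unique, Finset.sum_singleton, Pi.smul_apply, smul_eq_mul, cov, hcdef, cj]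
    have e0 : dz j (fun y => g y) (e x) = dz j g (e x) := rfl
    rw [e0]
    field_simp
  rw [hxi, vec_cv]
  ext j k
  simp only [Matrix.vecMulVec_apply, Pi.smul_apply, Pi.star_apply, smul_eq_mul, RCLike.star_def,
    map_mul, map_inv₀, Matrix.smul_apply]
  have hgg : ((‖g (e x)‖ ^ 2 : ℝ) : ℂ) = g (e x) * (starRingEnd ℂ) (g (e x)) := by
    rw [Complex.mul_conj, Complex.normSq_eq_norm_sq]
  have hcg : (starRingEnd ℂ) (g (e x)) ≠ 0 := by simpa using hg0
  rw [hr0, Complex.ofReal_mul, hgg]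
  field_simp

end

end Vale.Agent.P281.H455.KD
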