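import Vale.Agent.P281.H455.KD.BD

/-!
# P281, theorem KD: `BdPart`
-/

open scoped Manifold ContDiff Topology ComplexOrder
open Set Filter Vale.Agent.P281.J Vale.Agent.P272.K Vale.Agent.P272.K.AMP Vale.Agent.P299
open Vale.Agent.P299.H882 (J xi qf)
open Vale.Agent.P272.K.INT (IsClosedForm)
open Matrix (vecMulVec)

set_option linter.all false

noncomputable section

namespace Vale.Agent.P281.H455.KD

open Vale.Agent.P281.H713 Vale.Agent.P281.H713.SA Vale.Agent.P281.H716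
open Vale.Agent.P281.H713.KD
open Vale.Agent.P299.H223
open Vale.Agent.P272.K.C2 (DM DMb MC MD)

section hol

variable {n : ℕ} {X : Type} [TopologicalSpace X] [ChartedSpace (Cm n) X] {h : X → ℝ}

lemma hol_loc (hh : IsHolNorm (n := n) h) {e : Chart n X} {x : X} (hx : At e x) :
    ∃ (N : ℕ) (a : Fin N → Cm n → ℂ) (H : Cm n → Matrix (Fin N) (Fin N) ℂ),
      (∀ b, AnalyticAt ℂ (a b) (e x)) ∧ MC ∞ H (e x) ∧ (H (e x)).PosDef ∧
      (∀ᶠ z in 𝓝 (e x), (H z).IsHermitian) ∧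
      (fun z => h (e.symm z)) =ᶠ[𝓝 (e x)] hN a H := by
  obtain ⟨N, a, H, h1, h2, h3, h4⟩ := hh e x hx
  refine ⟨N, a, H, h1, h2, h3, ?_, ?_⟩
  · filter_upwards [h4] with z hz using hz.1
  · filter_upwards [h4] with z hz
    rw [hz.2, hN_eq]

lemma hol_smooth (hh : IsHolNorm (n := n) h) : SmoothFn (n := n) h := by
  intro e x hx
  obtain ⟨N, a, H, h1, h2, h3, h4, h5⟩ := hol_loc hh hx
  exact (smooth_hN h1 h2 (by simp)).congr_of_eventuallyEq h5

lemma hol_nonneg (hh : IsHolNorm (n := n) h) (x : X) : 0 ≤ h x := by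
  have hx := at_chartAt (n := n) x
  obtain ⟨N, a, H, h1, h2, h3, h4, h5⟩ := hol_loc hh hx
  have h6 := h5.self_of_nhds
  simp only [] at h6
  rw [hx.left_inv] at h6
  rw [h6]
  exact quad_nonneg h3.posSemidef _

lemma sm_logh (hh : IsHolNorm (n := n) h) {ε : ℝ} (hε : 0 < ε) :
    SmoothFn (n := n) fun x => Real.log (h x + ε) := by
  intro e x hx
  refine ((hol_smooth hh e x hx).add contDiffAt_const).log ?_
  rw [hx.left_inv]
  have := hol_nonneg hh x
  positivity

theorem hol_bound [CompactSpace X] [IsManifold 𝓘(ℂ, Cm n) ω X] {χ : D.FormM n X}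
    (hχ : IsHermitian χ) (hh : IsHolNorm (n := n) h) :
    ∃ C : ℝ, 0 ≤ C ∧ ∀ ε : ℝ, 0 < ε → ∀ (e : Chart n X) x, At e x →
      (hess (fun y => Real.log (h y + ε)) e (e x) + (C : ℂ) • χ e (e x)).PosSemidef := by
  obtain ⟨C, hC, h1⟩ := glob_bound (ι := {ε : ℝ // 0 < ε}) hχ
    (fun ε => hess (fun y => Real.log (h y + ε.1))) (fun ε => isForm_hess (sm_logh hh ε.2))
    fun x => by
      have hx := at_chartAt (n := n) x
      obtain ⟨N, a, H, h1, h2, h3, h4, h5⟩ := hol_loc hh hx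
      obtain ⟨C, hC, h6⟩ := exists_log_hN h1 h2 h4 h3
      refine ⟨_, hx, C, hC, ?_⟩
      filter_upwards [h6, h5.eventuallyEq_nhds] with z hz hz2 ε
      have h7 := hz ε.1 ε.2
      have h8 : hess (fun y => Real.log (h y + ε.1)) (chartAt (Cm n) x) z =
          cHess (fun y => Real.log (hN a H y + ε.1)) z := by
        refine C2.cHess_congr ?_
        filter_upwards [hz2] with y hy
        rw [hy]
      rw [h8]
      exact h7
  exact ⟨C, hC, fun ε hε => h1 ⟨ε, hε⟩⟩

end hol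

/-- **Block BD**. -/
theorem bdPart : BdPart := by
  intro n M X _ _ _ _ _ _ χ hχ Dv r R hB
  have hχh : IsHermitian χ := hχ.toIsHermitian
  refine ⟨bd_smooth hB, ?_, fun h hh => ⟨hol_smooth hh, ?_⟩⟩
  swap
  · obtain ⟨C, hC, h1⟩ := hol_bound hχh hh
    exact ⟨C, hC, fun ε hε _ => h1 ε hε⟩
  have hcR : ∀ i (e : Chart n X) x, At e x → ∀ j k, ContinuousAt (fun z => R i e z j k) (e x) :=
    fun i e x hx j k => ((hB.closed i).smooth e x hx j k).continuousAt
  obtain ⟨C₁, hC₁, k1⟩ := glob_form hχh R (fun i => (hB.closed i).form) hcR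
    (fun i e x hx => bd_herm hB i hx)
  obtain ⟨C₂, hC₂, k2⟩ := glob_form hχh (fun i e z => -R i e z)
    (fun i e e' x hx hx' => by
      show -R i e (e x) = _ * (-R i e' (e' x)) * _
      rw [(hB.closed i).form e e' x hx hx', Matrix.mul_neg, Matrix.neg_mul])
    (fun i e x hx j k => (hcR i e x hx j k).neg) (fun i e x hx => (bd_herm hB i hx).neg)
  obtain ⟨C₃, hC₃, k3⟩ := glob_form hχh (fun i e z => -bb (r i) (R i) e z)
    (fun i e e' x hx hx' => by
      show -bb (r i) (R i) e (e x) = _ * (-bb (r i) (R i) e' (e' x)) * _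
      rw [isForm_bb hB i e e' x hx hx', Matrix.mul_neg, Matrix.neg_mul])
    (fun i e x hx j k => (cont_bb hB i hx j k).neg)
    (fun i e x hx => by
      obtain ⟨g, ψ, h1, h2, h3⟩ := bd_loc hB i hx
      show (-bb (r i) (R i) e (e x)).IsHermitian
      rw [bb_eq hB i hx h1 h2 h3]
      exact (psd_vec _).isHermitian.neg)
  set C : ℝ := C₁ + C₂ + C₃ * (n + 1) with hCdef
  have hC : 0 ≤ C := by positivity
  have hC₃' : C₃ * n ≤ C := by rw [hCdef]; nlinarith
  refine ⟨C, hC, fun i e x hx => ?_⟩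
  have hP := (hχh.posDef e x hx)
  have hr := bd_nonneg hB i x
  have hp : ((C : ℂ) • χ e (e x) + R i e (e x)).PosSemidef := by
    rw [add_comm]
    exact psd_mono hP.posSemidef (by rw [hCdef]; nlinarith) (k1 i e x hx)
  have hm : ((C : ℂ) • χ e (e x) - R i e (e x)).PosSemidef := by
    have := psd_mono hP.posSemidef (C' := C) (by rw [hCdef]; nlinarith) (k2 i e x hx)
    rw [sub_eq_neg_add]
    exact this
  obtain ⟨g, ψ, h1, h2, h3⟩ := bd_loc hB i hx
  have hqf : qf (χ e (e x)) (cv g ψ (e x)) ≤ C := by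
    refine (qf_le_of_vec hP ?_).trans hC₃'
    have this : (-bb (r i) (R i) e (e x) + (C₃ : ℂ) • χ e (e x)).PosSemidef := k3 i e x hx
    rw [bb_eq hB i hx h1 h2 h3, neg_add_eq_sub] at this
    exact this
  refine ⟨hm, hp, fun ε hε _ => ?_⟩
  have hD := dF_eq hx h1 h2 h3 hε
  have hre : 0 < r i x + ε := by positivity
  refine ⟨pt_a hp (psd_vec _) hr hε hD, ?_, fun h0 => ?_⟩
  · refine ⟨((√ε / (r i x + ε) : ℝ) : ℂ) • cv g ψ (e x), ?_, ?_⟩
    · rw [vec_smul, div_pow, Real.sq_sqrt hε.le]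
      exact pt_b hC hP.posSemidef hm hr hε hD
    · rw [qf_smul, div_pow, Real.sq_sqrt hε.le, mul_comm C]
      exact mul_le_mul_of_nonneg_left hqf (by positivity)
  · rw [vec_log hx h1 h2 (h3.mono fun y hy => hy.1) h0] at hD
    exact pt_c hm (psd_vec _) hr hε hD

end Vale.Agent.P281.H455.KD
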