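import Vale.Agent.P281.H455.KD.Nrm2
import Vale.Agent.P272.K.C2.PosLin

/-!
# P281, theorem KD: block BD (`BdPart`)
-/

open scoped Manifold ContDiff Topology ComplexOrder
open Set Filter Vale.Agent.P281.J Vale.Agent.P272.K Vale.Agent.P272.K.AMP Vale.Agent.P299
open Vale.Agent.P299.H882 (J xi qf)
open Vale.Agent.P272.K.INT (IsClosedForm)
open Matrix (vecMulVec)

set_option linter.all false

noncomputable section

namespace Vale.Agent.P281.H455.KD

open Vale.Agent.P281.H713 Vale.Agent.P281.H713.SA Vale.Agent.P281.H716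
open Vale.Agent.P281.H713.KD
open Vale.Agent.P299.H223
open Vale.Agent.P272.K.C2 (DM DMb MC MD)

section mat

variable {n : ℕ}

lemma psd_smul {M : Matrix (Fin n) (Fin n) ℂ} (hM : M.PosSemidef) {t : ℝ} (ht : 0 ≤ t) :
    ((t : ℂ) • M).PosSemidef := hM.smul (by exact_mod_cast ht)

lemma psd_vec (v : Fin n → ℂ) : (vecMulVec v (star v)).PosSemidef :=
  Matrix.posSemidef_vecMulVec_self_star v

/-- rank one bound -/
lemma qf_le_of_vec {χ : Matrix (Fin n) (Fin n) ℂ} (hχ : χ.PosDef) {C : ℝ} {v : Fin n → ℂ}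
    (h : ((C : ℂ) • χ - vecMulVec v (star v)).PosSemidef) : qf χ v ≤ C * n := by
  have h1 := (Complex.le_def.1 (C2.trace_mul_nonneg hχ.inv.posSemidef h)).1
  have hu : IsUnit χ.det := isUnit_iff_ne_zero.2 hχ.det_pos.ne'
  rw [Matrix.mul_sub, Matrix.mul_smul, Matrix.nonsing_inv_mul _ hu, Matrix.trace_sub,
    Matrix.trace_smul, Matrix.trace_one, Complex.sub_re, smul_eq_mul] at h1
  simp at h1
  unfold qf
  linarith

lemma qf_smul (χ : Matrix (Fin n) (Fin n) ℂ) (t : ℝ) (v : Fin n → ℂ) :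
    qf χ ((t : ℂ) • v) = t ^ 2 * qf χ v := by
  unfold qf
  rw [vec_smul, Matrix.mul_smul, Matrix.trace_smul, smul_eq_mul, Complex.re_ofReal_mul]

variable {χ R V W D' : Matrix (Fin n) (Fin n) ℂ} {C r ε : ℝ}

lemma pt_a (h2 : ((C : ℂ) • χ + R).PosSemidef) (hV : V.PosSemidef) (hr : 0 ≤ r) (hε : 0 < ε)
    (hD : D' = ((ε / (r + ε) : ℝ) : ℂ) • R + ((ε / (r + ε) ^ 2 : ℝ) : ℂ) • V) :
    (D' + ((C * (ε / (r + ε)) : ℝ) : ℂ) • χ).PosSemidef := by
  have h3 : D' + ((C * (ε / (r + ε)) : ℝ) : ℂ) • χ =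
      ((ε / (r + ε) : ℝ) : ℂ) • ((C : ℂ) • χ + R) + ((ε / (r + ε) ^ 2 : ℝ) : ℂ) • V := by
    rw [hD, smul_add, smul_smul, ← Complex.ofReal_mul, mul_comm C]
    abel
  rw [h3]
  exact (psd_smul h2 (by positivity)).add (psd_smul hV (by positivity))

lemma pt_b (hC : 0 ≤ C) (hχ : χ.PosSemidef) (h1 : ((C : ℂ) • χ - R).PosSemidef) (hr : 0 ≤ r)
    (hε : 0 < ε)
    (hD : D' = ((ε / (r + ε) : ℝ) : ℂ) • R + ((ε / (r + ε) ^ 2 : ℝ) : ℂ) • V) :
    ((C : ℂ) • χ + ((ε / (r + ε) ^ 2 : ℝ) : ℂ) • V - D').PosSemidef := by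
  have hf : ε / (r + ε) ≤ 1 := by rw [div_le_one (by positivity)]; linarith
  have h3 : (C : ℂ) • χ + ((ε / (r + ε) ^ 2 : ℝ) : ℂ) • V - D' =
      (((1 - ε / (r + ε)) * C : ℝ) : ℂ) • χ + ((ε / (r + ε) : ℝ) : ℂ) • ((C : ℂ) • χ - R) := by
    rw [hD]
    ext i j
    simp only [Matrix.add_apply, Matrix.sub_apply, Matrix.smul_apply, smul_eq_mul]
    push_cast
    ring
  rw [h3]
  exact (psd_smul hχ (mul_nonneg (sub_nonneg.2 hf) hC)).add (psd_smul h1 (by positivity))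

lemma pt_c (h1 : ((C : ℂ) • χ - R).PosSemidef) (hW : W.PosSemidef) (hr : 0 ≤ r) (hε : 0 < ε)
    (hD : D' = ((ε / (r + ε) : ℝ) : ℂ) • R + ((ε / (r + ε) ^ 2 : ℝ) : ℂ) • ((r : ℂ) • W)) :
    (((C * (ε / (r + ε)) : ℝ) : ℂ) • χ + ((ε / (r + ε) : ℝ) : ℂ) • W - D').PosSemidef := by
  have h3 : ((C * (ε / (r + ε)) : ℝ) : ℂ) • χ + ((ε / (r + ε) : ℝ) : ℂ) • W - D' =
      ((ε / (r + ε) : ℝ) : ℂ) • ((C : ℂ) • χ - R) + ((ε ^ 2 / (r + ε) ^ 2 : ℝ) : ℂ) • W := by
    rw [hD]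
    have hne : ((r : ℂ) + (ε : ℂ)) ≠ 0 := by
      have : (0 : ℝ) < r + ε := by positivity
      exact_mod_cast this.ne'
    ext i j
    simp only [Matrix.add_apply, Matrix.sub_apply, Matrix.smul_apply, smul_eq_mul]
    push_cast
    field_simp
    ring
  rw [h3]
  exact (psd_smul h1 (by positivity)).add (psd_smul hW (by positivity))

end mat

section glob

variable {n : ℕ} {X : Type} [TopologicalSpace X] [ChartedSpace (Cm n) X]
  {χ F : D.FormM n X} {e : Chart n X} {x : X}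

/-- local bound for a continuous form -/
lemma loc_bound {A : Cm n → Matrix (Fin n) (Fin n) ℂ} {z₀ : Cm n}
    (hc : ∀ j k, ContinuousAt (fun z => A z j k) z₀) :
    ∃ C : ℝ, 0 ≤ C ∧ ∀ᶠ z in 𝓝 z₀, (A z).IsHermitian → (A z + (C : ℂ) • 1).PosSemidef := by
  set f : Cm n → ℝ := fun y => ∑ j, ∑ k, ‖A y j k‖ with hf
  have hfc : ContinuousAt f z₀ := by
    refine tendsto_finset_sum _ fun j _ => tendsto_finset_sum _ fun k _ => ?_
    exact (hc j k).norm
  have hle : ∀ y j k, ‖A y j k‖ ≤ f y := by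
    intro y j k
    refine le_trans ?_ (Finset.single_le_sum (f := fun j => ∑ k, ‖A y j k‖)
      (fun i _ => by positivity) (Finset.mem_univ j))
    exact Finset.single_le_sum (f := fun k => ‖A y j k‖)
      (fun i _ => by positivity) (Finset.mem_univ k)
  have hf0 : 0 ≤ f z₀ := by positivity
  refine ⟨(f z₀ + 1) * n, by positivity, ?_⟩
  filter_upwards [hfc.eventually (gt_mem_nhds (lt_add_one (f z₀)))] with y hy hh
  refine posSemidef_of_quad (hh.add (herm_smul Matrix.isHermitian_one _)) fun ξ => ?_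
  rw [quad_add, quad_smulM, Complex.add_re, Complex.re_ofReal_mul, quad_one]
  have h1 := quad_bound (M := A y) (B := f z₀ + 1) (fun j k => (hle y j k).trans hy.le) ξ
  have h2 := (abs_le.1 (Complex.abs_re_le_norm (quad (A y) ξ))).1
  nlinarith

lemma psd_mono {A M : Matrix (Fin n) (Fin n) ℂ} {C C' : ℝ} (hM : M.PosSemidef) (h : C ≤ C')
    (h1 : (A + (C : ℂ) • M).PosSemidef) : (A + (C' : ℂ) • M).PosSemidef := by
  have h2 : A + (C' : ℂ) • M = (A + (C : ℂ) • M) + ((C' - C : ℝ) : ℂ) • M := by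
    push_cast
    rw [sub_smul]; abel
  rw [h2]
  exact h1.add (psd_smul hM (sub_nonneg.2 h))

/-- from local bounds to a global bound -/
theorem glob_bound [CompactSpace X] [IsManifold 𝓘(ℂ, Cm n) ω X] {ι : Type} (hχ : IsHermitian χ)
    (F : ι → D.FormM n X) (hF : ∀ i, IsForm (F i))
    (hloc : ∀ x, ∃ e : Chart n X, At e x ∧ ∃ C : ℝ, 0 ≤ C ∧ ∀ᶠ z in 𝓝 (e x), ∀ i,
      (F i e z + (C : ℂ) • 1).PosSemidef) :
    ∃ C : ℝ, 0 ≤ C ∧ ∀ i (e : Chart n X) x, At e x →
      (F i e (e x) + (C : ℂ) • χ e (e x)).PosSemidef := by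
  have key : ∃ C : ℝ, 0 ≤ C ∧ ∀ x ∈ (univ : Set X), ∀ i (e : Chart n X), At e x →
      (F i e (e x) + (C : ℂ) • χ e (e x)).PosSemidef := by
    refine isCompact_univ.induction_on (p := fun s => ∃ C : ℝ, 0 ≤ C ∧ ∀ x ∈ s, ∀ i
      (e : Chart n X), At e x → (F i e (e x) + (C : ℂ) • χ e (e x)).PosSemidef) ?_ ?_ ?_ ?_
    · exact ⟨0, le_rfl, fun x hx => hx.elim⟩
    · rintro s t hst ⟨C, hC0, hCt⟩
      exact ⟨C, hC0, fun x hx => hCt x (hst hx)⟩
    · rintro s t ⟨C, hC0, hCs⟩ ⟨C', hC0', hCt⟩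
      refine ⟨max C C', le_max_of_le_left hC0, ?_⟩
      rintro x (hx | hx) i e hex
      · exact psd_mono (hχ.posDef e x hex).posSemidef (le_max_left _ _) (hCs x hx i e hex)
      · exact psd_mono (hχ.posDef e x hex).posSemidef (le_max_right _ _) (hCt x hx i e hex)
    · intro x _
      obtain ⟨c, hAt, C, hC, hev⟩ := hloc x
      obtain ⟨C₂, hC₂, hlow⟩ := exists_lower (H := fun z => χ c z) (z₀ := c x)
        (fun b d => (hχ.smooth c x hAt b d).continuousAt) (hχ.posDef c x hAt)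
      have hev2 : ∀ᶠ y in 𝓝 x, (∀ i, (F i c (c y) + (C : ℂ) • 1).PosSemidef) ∧
          ∀ ξ : Fin n → ℂ, ∑ b, ‖ξ b‖ ^ 2 ≤ C₂ * (quad (χ c (c y)) ξ).re :=
        (c.continuousAt hAt.2).eventually (hev.and hlow)
      refine ⟨_, mem_nhdsWithin_of_mem_nhds (inter_mem (c.open_source.mem_nhds hAt.2) hev2),
        C * C₂, by positivity, ?_⟩
      rintro y ⟨hy1, hy2, hy3⟩ i e hey
      have hcy : At c y := ⟨hAt.1, hy1⟩
      have h1 : (F i c (c y) + ((C * C₂ : ℝ) : ℂ) • χ c (c y)).PosSemidef := by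
        have h2 : F i c (c y) + ((C * C₂ : ℝ) : ℂ) • χ c (c y) = (F i c (c y) + (C : ℂ) • 1) +
            (C : ℂ) • ((C₂ : ℂ) • χ c (c y) - 1) := by
          rw [smul_sub, smul_smul]
          push_cast
          abel
        rw [h2]
        refine (hy2 i).add (psd_smul ?_ hC)
        refine posSemidef_of_quad ((herm_smul (hχ.posDef c y hcy).isHermitian _).sub
          Matrix.isHermitian_one) fun ξ => ?_
        have h3 : quad ((C₂ : ℂ) • χ c (c y) - 1) ξ = (C₂ : ℂ) * quad (χ c (c y)) ξ - quad 1 ξ := by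
          have := quad_add ((C₂ : ℂ) • χ c (c y) - 1) 1 ξ
          rw [sub_add_cancel, quad_smulM] at this
          rw [this]; ring
        rw [h3, Complex.sub_re, Complex.re_ofReal_mul, quad_one]
        have := hy3 ξ
        linarith
      have h2 : F i e (e y) + ((C * C₂ : ℝ) : ℂ) • χ e (e y) =
          (jacM e c y).transpose * (F i c (c y) + ((C * C₂ : ℝ) : ℂ) • χ c (c y)) *
            (jacM e c y).map (starRingEnd ℂ) := by
        rw [hχ.change e c y hey hcy, hF i e c y hey hcy, Matrix.mul_add, Matrix.add_mul,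
          Matrix.mul_smul, Matrix.smul_mul]
      rw [h2]
      exact posSemidef_form h1 _
  obtain ⟨C, hC0, h⟩ := key
  exact ⟨C, hC0, fun i e x hx => h x (mem_univ x) i e hx⟩

/-- a smooth Hermitian form is bounded below by a multiple of a metric -/
theorem glob_form [CompactSpace X] [IsManifold 𝓘(ℂ, Cm n) ω X] {ι : Type} [Finite ι]
    (hχ : IsHermitian χ) (F : ι → D.FormM n X) (hF : ∀ i, IsForm (F i))
    (hc : ∀ i (e : Chart n X) x, At e x → ∀ j k, ContinuousAt (fun z => F i e z j k) (e x))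
    (hh : ∀ i (e : Chart n X) x, At e x → (F i e (e x)).IsHermitian) :
    ∃ C : ℝ, 0 ≤ C ∧ ∀ i (e : Chart n X) x, At e x →
      (F i e (e x) + (C : ℂ) • χ e (e x)).PosSemidef := by
  refine glob_bound hχ F hF fun x => ⟨chartAt (Cm n) x, at_chartAt x, ?_⟩
  set c := chartAt (Cm n) x with hcdef
  have hx : At c x := at_chartAt x
  have h1 : ∀ i, ∃ C : ℝ, 0 ≤ C ∧ ∀ᶠ z in 𝓝 (c x), (F i c z).IsHermitian →
      (F i c z + (C : ℂ) • 1).PosSemidef := fun i => loc_bound (hc i c x hx)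
  choose C hC0 hC using h1
  obtain ⟨B, hB⟩ := (Set.finite_range C).bddAbove
  refine ⟨max B 0, le_max_right _ _, ?_⟩
  filter_upwards [Filter.eventually_all.2 hC, c.open_target.mem_nhds (hx.mem_target)] with z h2 h3 i
  have h4 : At c (c.symm z) := At.of_target hx.1 h3
  have h5 := hh i c (c.symm z) h4
  rw [c.right_inv h3] at h5
  refine psd_mono Matrix.PosSemidef.one ?_ (h2 i h5)
  exact (hB ⟨i, rfl⟩).trans (le_max_left _ _)

end glob

section bd

variable {n M : ℕ} {X : Type} [TopologicalSpace X] [ChartedSpace (Cm n) X]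
  {Dv : Fin M → Set X} {r : Fin M → X → ℝ} {R : Fin M → D.FormM n X}

/-- a local representation of `r i`, `R i` -/
lemma bd_loc (h : IsBd Dv r R) (i : Fin M) {e : Chart n X} {x : X} (hx : At e x) :
    ∃ (g : Cm n → ℂ) (ψ : Cm n → ℝ), AnalyticAt ℂ g (e x) ∧ ContDiffAt ℝ ∞ ψ (e x) ∧
      ∀ᶠ y in 𝓝 (e x), r i (e.symm y) = ‖g y‖ ^ 2 * Real.exp (-ψ y) ∧ R i e y = cHess ψ y := by
  obtain ⟨g, ψ, h1, h2, -, -, h3⟩ := h.loc e x hx
  exact ⟨g i, ψ i, h1 i, h2 i, by filter_upwards [h3] with y hy using hy i⟩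

lemma bd_smooth (h : IsBd Dv r R) (i : Fin M) : SmoothFn (n := n) (r i) := by
  intro e x hx
  obtain ⟨g, ψ, h1, h2, h3⟩ := bd_loc h i hx
  refine ContDiffAt.congr_of_eventuallyEq ((smooth_normsq h1).mul h2.neg.exp) ?_
  filter_upwards [h3] with y hy using hy.1

lemma bd_nonneg (h : IsBd Dv r R) (i : Fin M) (x : X) : 0 ≤ r i x := by
  obtain ⟨g, ψ, h1, h2, h3⟩ := bd_loc h i (at_chartAt (n := n) x)
  have := h3.self_of_nhds.1
  rw [(at_chartAt (n := n) x).left_inv] at this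
  rw [this]
  positivity

lemma bd_herm (h : IsBd Dv r R) (i : Fin M) {e : Chart n X} {x : X} (hx : At e x) :
    (R i e (e x)).IsHermitian := by
  obtain ⟨g, ψ, h1, h2, h3⟩ := bd_loc h i hx
  rw [h3.self_of_nhds.2]
  exact cHess_isHermitian (h2.of_le (by exact WithTop.coe_le_coe.2 le_top))

variable [IsManifold 𝓘(ℂ, Cm n) ω X]

lemma sm_logr (h : IsBd Dv r R) (i : Fin M) {ε : ℝ} (hε : 0 < ε) :
    SmoothFn (n := n) fun x => Real.log (r i x + ε) := by
  intro e x hx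
  refine ((bd_smooth h i e x hx).add contDiffAt_const).log ?_
  rw [hx.left_inv]
  have := bd_nonneg h i x
  positivity

lemma isForm_dF (h : IsBd Dv r R) (i : Fin M) {ε : ℝ} (hε : 0 < ε) :
    IsForm (dF (r i) (R i) ε) :=
  (isForm_hess (sm_logr h i hε)).add (h.closed i).form

/-- the form `exp (-ψ) (∂g - g ∂ψ) ⊗ conj` -/
def bb (r : X → ℝ) (R : D.FormM n X) : D.FormM n X := fun e z =>
  (((r (e.symm z) + 1) ^ 2 : ℝ) : ℂ) • dF r R 1 e z - ((r (e.symm z) + 1 : ℝ) : ℂ) • R e z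

lemma bb_eq (h : IsBd Dv r R) (i : Fin M) {e : Chart n X} {x : X} (hx : At e x)
    {g : Cm n → ℂ} {ψ : Cm n → ℝ} (h1 : AnalyticAt ℂ g (e x)) (h2 : ContDiffAt ℝ ∞ ψ (e x))
    (h3 : ∀ᶠ y in 𝓝 (e x), r i (e.symm y) = ‖g y‖ ^ 2 * Real.exp (-ψ y) ∧ R i e y = cHess ψ y) :
    bb (r i) (R i) e (e x) = vecMulVec (cv g ψ (e x)) (star (cv g ψ (e x))) := by
  have h4 := bd_nonneg h i x
  have h5 : (r i x : ℂ) + 1 ≠ 0 := by
    have : (0 : ℝ) < r i x + 1 := by positivity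
    exact_mod_cast this.ne'
  unfold bb
  rw [hx.left_inv, dF_eq hx h1 h2 h3 one_pos]
  ext j k
  simp only [Matrix.add_apply, Matrix.sub_apply, Matrix.smul_apply, smul_eq_mul]
  push_cast
  field_simp
  ring

lemma isForm_bb (h : IsBd Dv r R) (i : Fin M) : IsForm (bb (r i) (R i)) := by
  intro e e' x hx hx'
  have h1 := isForm_dF h i one_pos e e' x hx hx'
  have h2 := (h.closed i).form e e' x hx hx'
  simp only [bb]
  rw [h1, h2, hx.left_inv, hx'.left_inv]
  simp only [Matrix.mul_sub, Matrix.sub_mul, Matrix.mul_smul, Matrix.smul_mul]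

lemma cont_bb (h : IsBd Dv r R) (i : Fin M) {e : Chart n X} {x : X} (hx : At e x)
    (j k : Fin n) : ContinuousAt (fun z => bb (r i) (R i) e z j k) (e x) := by
  have h1 : ContinuousAt (fun z => ((r i (e.symm z) : ℝ) : ℂ)) (e x) :=
    Complex.continuous_ofReal.continuousAt.comp (bd_smooth h i e x hx).continuousAt
  have h2 : ContinuousAt (fun z => R i e z j k) (e x) := ((h.closed i).smooth e x hx j k).continuousAt
  have h3 : ContinuousAt (fun z => cHess (fun y => Real.log (r i (e.symm y) + 1)) z j k) (e x) :=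
    (C2.contDiffAt_cHess (m := 0) ((sm_logr h i one_pos e x hx).of_le
      (by exact WithTop.coe_le_coe.2 le_top : (2 : WithTop ℕ∞) ≤ ∞)) (by norm_num) j k).continuousAt
  have h4 : (fun z => bb (r i) (R i) e z j k) = fun z =>
      (((r i (e.symm z) : ℝ) : ℂ) + 1) ^ 2 *
        (cHess (fun y => Real.log (r i (e.symm y) + 1)) z j k + R i e z j k) -
      (((r i (e.symm z) : ℝ) : ℂ) + 1) * R i e z j k := by
    funext z
    simp only [bb, dF, Matrix.sub_apply, Matrix.smul_apply, Matrix.add_apply, smul_eq_mul]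
    push_cast
    ring
  rw [h4]
  exact (((h1.add continuousAt_const).pow 2).mul (h3.add h2)).sub
    ((h1.add continuousAt_const).mul h2)

end bd

end Vale.Agent.P281.H455.KD
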