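import Vale.Agent.P281.H455.KD.Loc
import Vale.Agent.P272.K.C2.Mat

/-!
# P281, theorem KD: `i∂∂̄ log (h + ε)` for the square `h` of the norm of a vector of holomorphic
functions
-/

open scoped Manifold ContDiff Topology ComplexOrder
open Set Filter Vale.Agent.P281.J Vale.Agent.P272.K Vale.Agent.P272.K.AMP Vale.Agent.P299
open Vale.Agent.P299.H882 (J xi qf)
open Vale.Agent.P272.K.INT (IsClosedForm)
open Matrix (vecMulVec)

set_option linter.all false

noncomputable section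

namespace Vale.Agent.P281.H455.KD

open Vale.Agent.P281.H713 Vale.Agent.P281.H713.SA Vale.Agent.P281.H716
open Vale.Agent.P281.H713.KD
open Vale.Agent.P299.H223
open Vale.Agent.P272.K.C2 (DM DMb MC MD)

variable {n N : ℕ}

lemma quad_bound {M : Matrix (Fin N) (Fin N) ℂ} {B : ℝ} (hB : ∀ b c, ‖M b c‖ ≤ B)
    (ξ : Fin N → ℂ) : ‖quad M ξ‖ ≤ B * (N * ∑ b, ‖ξ b‖ ^ 2) := by
  rcases Nat.eq_zero_or_pos N with rfl | hN
  · simp [quad]
  have hB0 : 0 ≤ B := (norm_nonneg _).trans (hB ⟨0, hN⟩ ⟨0, hN⟩)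
  have h1 : ‖quad M ξ‖ ≤ ∑ b, ∑ c, B * (‖ξ b‖ * ‖ξ c‖) := by
    unfold quad
    refine (norm_sum_le _ _).trans (Finset.sum_le_sum fun b _ => ?_)
    refine (norm_sum_le _ _).trans (Finset.sum_le_sum fun c _ => ?_)
    rw [norm_mul, norm_mul]
    have : ‖cj (ξ c)‖ = ‖ξ c‖ := Complex.norm_conj _
    rw [this]
    exact mul_le_mul_of_nonneg_right (hB b c) (by positivity)
  have h2 : ∑ b, ∑ c, B * (‖ξ b‖ * ‖ξ c‖) = B * (∑ b, ‖ξ b‖) ^ 2 := by
    rw [sq, Finset.sum_mul_sum, Finset.mul_sum]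
    refine Finset.sum_congr rfl fun b _ => ?_
    rw [Finset.mul_sum]
  rw [h2] at h1
  refine h1.trans (mul_le_mul_of_nonneg_left ?_ hB0)
  have h3 := sq_sum_le_card_mul_sum_sq (s := (Finset.univ : Finset (Fin N))) (f := fun b => ‖ξ b‖)
  simpa using h3

lemma quad_one (ξ : Fin N → ℂ) : (quad (1 : Matrix (Fin N) (Fin N) ℂ) ξ).re = ∑ b, ‖ξ b‖ ^ 2 := by
  unfold quad
  rw [Complex.re_sum]
  refine Finset.sum_congr rfl fun i _ => ?_
  rw [Finset.sum_eq_single i]
  · have : ξ i * cj (ξ i) = ((‖ξ i‖ ^ 2 : ℝ) : ℂ) := by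
      rw [show cj (ξ i) = (starRingEnd ℂ) (ξ i) from rfl, Complex.mul_conj,
        Complex.normSq_eq_norm_sq]
    rw [this, Matrix.one_apply_eq, one_mul, Complex.ofReal_re]
  · intro j _ hj
    rw [Matrix.one_apply_ne hj.symm, zero_mul]
  · intro h; exact absurd (Finset.mem_univ i) h

lemma quad_add (A B : Matrix (Fin N) (Fin N) ℂ) (ξ : Fin N → ℂ) :
    quad (A + B) ξ = quad A ξ + quad B ξ := by
  unfold quad
  rw [← Finset.sum_add_distrib]
  refine Finset.sum_congr rfl fun i _ => ?_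
  rw [← Finset.sum_add_distrib]
  refine Finset.sum_congr rfl fun j _ => ?_
  rw [Matrix.add_apply, add_mul]

lemma quad_smulM (t : ℂ) (A : Matrix (Fin N) (Fin N) ℂ) (ξ : Fin N → ℂ) :
    quad (t • A) ξ = t * quad A ξ := by
  unfold quad
  rw [Finset.mul_sum]
  refine Finset.sum_congr rfl fun i _ => ?_
  rw [Finset.mul_sum]
  refine Finset.sum_congr rfl fun j _ => ?_
  rw [Matrix.smul_apply, smul_eq_mul, mul_assoc]

/-- uniform lower bound -/
lemma exists_lower {H : Cm n → Matrix (Fin N) (Fin N) ℂ} {z₀ : Cm n}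
    (hc : ∀ b c, ContinuousAt (fun z => H z b c) z₀) (hpd : (H z₀).PosDef) :
    ∃ C : ℝ, 0 < C ∧ ∀ᶠ z in 𝓝 z₀, ∀ ξ : Fin N → ℂ,
      ∑ b, ‖ξ b‖ ^ 2 ≤ C * (quad (H z) ξ).re := by
  obtain ⟨C, hC, h1⟩ := exists_quad_lower (n := N) (K := {0}) isCompact_singleton
    (fun _ => H z₀) (fun _ => 1) (fun i j => continuousOn_const) (fun i j => continuousOn_const)
    (fun z _ => hpd)
  have h2 : ∀ ξ : Fin N → ℂ, ∑ b, ‖ξ b‖ ^ 2 ≤ C * (quad (H z₀) ξ).re := fun ξ => by
    rw [← quad_one]; exact h1 0 rfl ξ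
  set η : ℝ := (2 * C * (N + 1))⁻¹ with hη
  have hη0 : 0 < η := by positivity
  have h3 : ∀ᶠ z in 𝓝 z₀, ∀ b c, ‖(H z - H z₀) b c‖ ≤ η := by
    rw [Filter.eventually_all]; intro b
    rw [Filter.eventually_all]; intro c
    have := Metric.continuousAt_iff.1 (hc b c) η hη0
    obtain ⟨δ, hδ, h⟩ := this
    filter_upwards [Metric.ball_mem_nhds z₀ hδ] with z hz
    have := h hz
    rw [dist_eq_norm] at this
    rw [Matrix.sub_apply]
    exact this.le
  refine ⟨2 * C, by positivity, ?_⟩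
  filter_upwards [h3] with z hz ξ
  set s : ℝ := ∑ b, ‖ξ b‖ ^ 2 with hs
  have hs0 : 0 ≤ s := Finset.sum_nonneg fun b _ => by positivity
  have h4 := quad_bound hz ξ
  rw [← hs] at h4
  have h5 : quad (H z) ξ = quad (H z₀) ξ + quad (H z - H z₀) ξ := by
    rw [← quad_add]; congr 1; abel
  have h6 : -(η * (N * s)) ≤ (quad (H z - H z₀) ξ).re := by
    have := (abs_le.1 (Complex.abs_re_le_norm (quad (H z - H z₀) ξ))).1
    linarith
  have h7 : C * (η * (N * s)) ≤ s / 2 := by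
    have e1 : C * (η * (N * s)) = (N / (N + 1)) * (s / 2) := by
      rw [hη]; field_simp
    rw [e1]
    have e2 : (N : ℝ) / (N + 1) ≤ 1 := by
      rw [div_le_one (by positivity)]; linarith
    calc (N : ℝ) / (N + 1) * (s / 2) ≤ 1 * (s / 2) :=
          mul_le_mul_of_nonneg_right e2 (by positivity)
      _ = s / 2 := one_mul _
  have h8 := h2 ξ
  rw [h5, Complex.add_re]
  have h9 : C * -(η * (N * s)) ≤ C * (quad (H z - H z₀) ξ).re :=
    mul_le_mul_of_nonneg_left h6 hC.le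
  nlinarith

/-- the row of the `a b` -/
def row (a : Fin N → Cm n → ℂ) (y : Cm n) : Matrix (Fin 1) (Fin N) ℂ := Matrix.of fun _ b => a b y

/-- `|a|²_H` -/
def hN (a : Fin N → Cm n → ℂ) (H : Cm n → Matrix (Fin N) (Fin N) ℂ) (z : Cm n) : ℝ :=
  (quad (H z) fun b => a b z).re

lemma hN_eq (a : Fin N → Cm n → ℂ) (H : Cm n → Matrix (Fin N) (Fin N) ℂ) (z : Cm n) :
    hN a H z = (∑ b, ∑ c, a b z * (starRingEnd ℂ) (a c z) * H z b c).re := by
  unfold hN quad
  congr 1
  refine Finset.sum_congr rfl fun b _ => Finset.sum_congr rfl fun c _ => ?_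
  rw [show cj (a c z) = (starRingEnd ℂ) (a c z) from rfl]
  ring

lemma quad_row (a : Fin N → Cm n → ℂ) (M : Matrix (Fin N) (Fin N) ℂ) (z : Cm n) :
    (row a z * M * (row a z).conjTranspose) 0 0 = quad M fun b => a b z := by
  simp only [Matrix.mul_apply, Matrix.conjTranspose_apply, row, Matrix.of_apply, RCLike.star_def]
  unfold quad
  simp only [Finset.sum_mul]
  rw [Finset.sum_comm]
  refine Finset.sum_congr rfl fun b _ => Finset.sum_congr rfl fun c _ => ?_
  rw [show cj (a c z) = (starRingEnd ℂ) (a c z) from rfl]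
  ring

section

variable {a : Fin N → Cm n → ℂ} {H : Cm n → Matrix (Fin N) (Fin N) ℂ} {z : Cm n}

lemma mc_row {m : WithTop ℕ∞} (ha : ∀ b, AnalyticAt ℂ (a b) z) (hm : m ≤ ω) :
    MC m (row a) z := fun _ b => by
  have h1 : ContDiffAt ℂ ω (a b) z := (ha b).contDiffAt
  exact (h1.restrict_scalars ℝ).of_le hm

lemma DMb_row (ha : ∀ b, AnalyticAt ℂ (a b) z) (k : Fin n) : DMb k (row a) z = 0 := by
  ext i b
  exact dzb_of_holo (ha b).differentiableAt

lemma ev_an (ha : ∀ b, AnalyticAt ℂ (a b) z) : ∀ᶠ y in 𝓝 z, ∀ b, AnalyticAt ℂ (a b) y :=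
  Filter.eventually_all.2 fun b => (ha b).eventually_analyticAt

lemma hN_ofReal (hh : (H z).IsHermitian) :
    ((hN a H z : ℝ) : ℂ) = (row a z * H z * (row a z).conjTranspose) 0 0 := by
  rw [quad_row]
  refine Complex.ext rfl ?_
  rw [Complex.ofReal_im, quad_im hh]

lemma DM_rowH (ha : ∀ b, AnalyticAt ℂ (a b) z) (k : Fin n) :
    DM k (fun y => (row a y).conjTranspose) z = 0 := by
  rw [C2.DM_conjTranspose ((mc_row (m := 1) ha le_top).md one_ne_zero), DMb_row ha,
    Matrix.conjTranspose_zero]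

lemma DMb_rowH (ha : ∀ b, AnalyticAt ℂ (a b) z) (k : Fin n) :
    DMb k (fun y => (row a y).conjTranspose) z = (DM k (row a) z).conjTranspose :=
  C2.DMb_conjTranspose ((mc_row (m := 1) ha le_top).md one_ne_zero)

lemma DM_DM_rowH (ha : ∀ b, AnalyticAt ℂ (a b) z) (j k : Fin n) :
    DM j (fun y => (DM k (row a) y).conjTranspose) z = 0 := by
  have h2 : MC 2 (row a) z := mc_row ha le_top
  have h1 : MC 1 (DM k (row a)) z := h2.DM (by norm_num)
  rw [C2.DM_conjTranspose (h1.md one_ne_zero), ← C2.DM_DMb_comm h2]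
  have h3 : DMb j (row a) =ᶠ[𝓝 z] fun _ => 0 := by
    filter_upwards [ev_an ha] with y hy using DMb_row hy j
  rw [C2.DM_congr h3, C2.DM_const, Matrix.conjTranspose_zero]

lemma DM_S (ha : ∀ b, AnalyticAt ℂ (a b) z) (hH : MC 1 H z) (j : Fin n) :
    DM j (fun y => row a y * H y * (row a y).conjTranspose) z =
      (DM j (row a) z * H z + row a z * DM j H z) * (row a z).conjTranspose := by
  have h1 : MC 1 (row a) z := mc_row ha le_top
  rw [C2.DM_mul ((h1.mul hH).md one_ne_zero) (h1.conjTranspose.md one_ne_zero), DM_rowH ha,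
    C2.DM_mul (h1.md one_ne_zero) (hH.md one_ne_zero), Matrix.mul_zero, add_zero]

lemma DMb_S (ha : ∀ b, AnalyticAt ℂ (a b) z) (hH : MC 1 H z) (k : Fin n) :
    DMb k (fun y => row a y * H y * (row a y).conjTranspose) z =
      row a z * DMb k H z * (row a z).conjTranspose +
        row a z * H z * (DM k (row a) z).conjTranspose := by
  have h1 : MC 1 (row a) z := mc_row ha le_top
  rw [C2.DMb_mul ((h1.mul hH).md one_ne_zero) (h1.conjTranspose.md one_ne_zero), DMb_rowH ha,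
    C2.DMb_mul (h1.md one_ne_zero) (hH.md one_ne_zero), DMb_row ha, Matrix.zero_mul, zero_add]

lemma DM_DMb_S (ha : ∀ b, AnalyticAt ℂ (a b) z) (hH : MC 2 H z) (j k : Fin n) :
    DM j (DMb k (fun y => row a y * H y * (row a y).conjTranspose)) z =
      (DM j (row a) z * DMb k H z + row a z * DM j (DMb k H) z) * (row a z).conjTranspose +
      (DM j (row a) z * H z + row a z * DM j H z) * (DM k (row a) z).conjTranspose := by
  have e0 : DMb k (fun y => row a y * H y * (row a y).conjTranspose) =ᶠ[𝓝 z] fun y =>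
      row a y * DMb k H y * (row a y).conjTranspose +
        row a y * H y * (DM k (row a) y).conjTranspose := by
    filter_upwards [ev_an ha, (MC.eventually (q := 2) hH)] with y h1 h2
    exact DMb_S h1 (MC.mono h2 (by norm_num)) k
  have r2 : MC 2 (row a) z := mc_row ha le_top
  have r1 : MC 1 (row a) z := mc_row ha le_top
  have H1 : MC 1 H z := hH.mono (by norm_num)
  have B1 : MC 1 (DMb k H) z := hH.DMb (by norm_num)
  have D1 : MC 1 (DM k (row a)) z := r2.DM (by norm_num)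
  rw [C2.DM_congr e0, C2.DM_add (((r1.mul B1).mul r1.conjTranspose).md one_ne_zero)
    (((r1.mul H1).mul D1.conjTranspose).md one_ne_zero),
    C2.DM_mul ((r1.mul B1).md one_ne_zero) (r1.conjTranspose.md one_ne_zero), DM_rowH ha,
    C2.DM_mul (r1.md one_ne_zero) (B1.md one_ne_zero),
    C2.DM_mul ((r1.mul H1).md one_ne_zero) (D1.conjTranspose.md one_ne_zero), DM_DM_rowH ha,
    C2.DM_mul (r1.md one_ne_zero) (H1.md one_ne_zero), Matrix.mul_zero, Matrix.mul_zero, add_zero,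
    add_zero]

lemma ev_hN (hh : ∀ᶠ y in 𝓝 z, (H y).IsHermitian) :
    (fun y => ((hN a H y : ℝ) : ℂ)) =ᶠ[𝓝 z]
      fun y => (row a y * H y * (row a y).conjTranspose) 0 0 := by
  filter_upwards [hh] with y hy using hN_ofReal hy

lemma smooth_hN {m : WithTop ℕ∞} (ha : ∀ b, AnalyticAt ℂ (a b) z) (hH : MC m H z) (hm : m ≤ ω) :
    ContDiffAt ℝ m (hN a H) z := by
  have h1 : MC m (row a) z := mc_row ha hm
  have h2 := ((h1.mul hH).mul h1.conjTranspose) 0 0
  have h3 : hN a H = fun y => ((row a y * H y * (row a y).conjTranspose) 0 0).re := by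
    funext y; rw [quad_row]; rfl
  rw [h3]
  exact Complex.reCLM.contDiff.contDiffAt.comp z h2

lemma dz_hN (ha : ∀ b, AnalyticAt ℂ (a b) z) (hH : MC 1 H z)
    (hh : ∀ᶠ y in 𝓝 z, (H y).IsHermitian) (j : Fin n) :
    dz j (fun y => ((hN a H y : ℝ) : ℂ)) z =
      ((DM j (row a) z * H z + row a z * DM j H z) * (row a z).conjTranspose) 0 0 := by
  rw [dz_congr (ev_hN hh), ← DM_S ha hH j]
  rfl

lemma cHess_hN (ha : ∀ b, AnalyticAt ℂ (a b) z) (hH : MC 2 H z)
    (hh : ∀ᶠ y in 𝓝 z, (H y).IsHermitian) (j k : Fin n) :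
    cHess (hN a H) z j k =
      ((DM j (row a) z * DMb k H z + row a z * DM j (DMb k H) z) * (row a z).conjTranspose +
      (DM j (row a) z * H z + row a z * DM j H z) * (DM k (row a) z).conjTranspose) 0 0 := by
  rw [← DM_DMb_S ha hH j k, cHess_apply]
  exact dz_congr (C2.dzb_eventuallyEq k (ev_hN hh))

end

end Vale.Agent.P281.H455.KD
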