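import Vale.Agent.P281.H455.KD.Nrm

/-!
# P281, theorem KD: lower bound for `i∂∂̄ log (h + ε)`
-/

open scoped Manifold ContDiff Topology ComplexOrder
open Set Filter Vale.Agent.P281.J Vale.Agent.P272.K Vale.Agent.P272.K.AMP Vale.Agent.P299
open Vale.Agent.P299.H882 (J xi qf)
open Vale.Agent.P272.K.INT (IsClosedForm)
open Matrix (vecMulVec)

set_option linter.all false

noncomputable section

namespace Vale.Agent.P281.H455.KD

open Vale.Agent.P281.H713 Vale.Agent.P281.H713.SA Vale.Agent.P281.H716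
open Vale.Agent.P281.H713.KD
open Vale.Agent.P299.H223
open Vale.Agent.P272.K.C2 (DM DMb MC MD)

variable {n N : ℕ} {a : Fin N → Cm n → ℂ} {H : Cm n → Matrix (Fin N) (Fin N) ℂ} {z : Cm n}

/-- minus the curvature matrices -/
def Wm (H : Cm n → Matrix (Fin N) (Fin N) ℂ) (j k : Fin n) (z : Cm n) :
    Matrix (Fin N) (Fin N) ℂ :=
  DM j (DMb k H) z - DM j H z * (H z)⁻¹ * (DM k H z).conjTranspose

lemma exists_W_bound (hH : MC ∞ H z) (hd : (H z).det ≠ 0) :
    ∃ B : ℝ, 0 ≤ B ∧ ∀ᶠ y in 𝓝 z, ∀ j k b c, ‖Wm H j k y b c‖ ≤ B := by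
  have h0 : ∀ j k, MC 0 (Wm H j k) z := fun j k => by
    have h1 : MC 0 (DM j (DMb k H)) z :=
      (hH.DMb (m' := 1) (by exact WithTop.coe_le_coe.2 le_top)).DM (by norm_num)
    have h2 : ∀ j, MC 0 (DM j H) z := fun j => hH.DM (by exact WithTop.coe_le_coe.2 le_top)
    have h3 : MC 0 (fun y => (H y)⁻¹) z := (hH.mono (by exact WithTop.coe_le_coe.2 le_top)).inv hd
    exact h1.sub (((h2 j).mul h3).mul (h2 k).conjTranspose)
  set F : Cm n → ℝ := fun y => ∑ j, ∑ k, ∑ b, ∑ c, ‖Wm H j k y b c‖ with hF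
  have hFc : ContinuousAt F z := by
    refine tendsto_finset_sum _ fun j _ => tendsto_finset_sum _ fun k _ =>
      tendsto_finset_sum _ fun b _ => tendsto_finset_sum _ fun c _ => ?_
    exact ((h0 j k b c).continuousAt).norm
  have hle : ∀ y j k b c, ‖Wm H j k y b c‖ ≤ F y := by
    intro y j k b c
    refine le_trans ?_ (Finset.single_le_sum (f := fun j => ∑ k, ∑ b, ∑ c, ‖Wm H j k y b c‖)
      (fun i _ => by positivity) (Finset.mem_univ j))
    refine le_trans ?_ (Finset.single_le_sum (f := fun k => ∑ b, ∑ c, ‖Wm H j k y b c‖)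
      (fun i _ => by positivity) (Finset.mem_univ k))
    refine le_trans ?_ (Finset.single_le_sum (f := fun b => ∑ c, ‖Wm H j k y b c‖)
      (fun i _ => by positivity) (Finset.mem_univ b))
    exact Finset.single_le_sum (f := fun c => ‖Wm H j k y b c‖)
      (fun i _ => by positivity) (Finset.mem_univ c)
  have hF0 : 0 ≤ F z := by positivity
  refine ⟨F z + 1, by positivity, ?_⟩
  filter_upwards [hFc.eventually (gt_mem_nhds (lt_add_one (F z)))] with y hy j k b c
  exact (hle y j k b c).trans hy.le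

lemma herm_smul {M : Matrix (Fin n) (Fin n) ℂ} (hM : M.IsHermitian) (C : ℝ) :
    ((C : ℂ) • M).IsHermitian := by
  ext i j
  rw [Matrix.conjTranspose_apply, Matrix.smul_apply, Matrix.smul_apply, smul_eq_mul, smul_eq_mul,
    star_mul', ← hM.apply i j]
  simp

lemma row_mul (u v : Matrix (Fin 1) (Fin N) ℂ) :
    ∑ i, u 0 i * cj (v 0 i) = (u * v.conjTranspose) 0 0 := by
  rw [Matrix.mul_apply]
  rfl

/-- **Lower bound.** -/
theorem log_hN_psd (ha : ∀ b, AnalyticAt ℂ (a b) z) (hH : MC 2 H z)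
    (hh : ∀ᶠ y in 𝓝 z, (H y).IsHermitian) (hpd : (H z).PosDef) {ε : ℝ} (hε : 0 < ε) {B : ℝ}
    (hB : ∀ j k b c, ‖Wm H j k z b c‖ ≤ B) (hB0 : 0 ≤ B) {C₂ : ℝ} (hC₂ : 0 ≤ C₂)
    (hlow : ∑ b, ‖a b z‖ ^ 2 ≤ C₂ * hN a H z) {C : ℝ} (hC : B * (N * C₂) * n ≤ C) :
    (cHess (fun y => Real.log (hN a H y + ε)) z + (C : ℂ) • 1).PosSemidef := by
  classical
  set A : Fin n → Matrix (Fin 1) (Fin N) ℂ := fun j => DM j (row a) z with hA
  set P : Fin n → Matrix (Fin N) (Fin N) ℂ := fun j => DM j H z with hP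
  set α : Matrix (Fin 1) (Fin N) ℂ := row a z with hα
  set G : Matrix (Fin N) (Fin N) ℂ := H z with hG
  have hGh : G.conjTranspose = G := hpd.isHermitian
  have hGu : IsUnit G.det := isUnit_iff_ne_zero.2 hpd.det_pos.ne'
  have hGi : G⁻¹.conjTranspose = G⁻¹ := by rw [Matrix.conjTranspose_nonsing_inv, hGh]
  have hGG : G⁻¹ * G = 1 := Matrix.nonsing_inv_mul _ hGu
  have hGG' : G * G⁻¹ = 1 := Matrix.mul_nonsing_inv _ hGu
  have hDb : ∀ k, DMb k H z = (P k).conjTranspose := fun k =>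
    C2.DMb_of_isHermitian (hH.md two_ne_zero) hh
  set Dv : Fin n → Matrix (Fin 1) (Fin N) ℂ := fun j => A j + α * P j * G⁻¹ with hDv
  have hDG : ∀ j, Dv j * G = A j * G + α * P j := fun j => by
    rw [hDv]
    simp only []
    rw [Matrix.add_mul, Matrix.mul_assoc (α * P j), hGG, Matrix.mul_one]
  -- the Hessian of `|a|²`
  have hess1 : ∀ j k, cHess (hN a H) z j k = (Dv j * G * (Dv k).conjTranspose) 0 0 +
      quad (Wm H j k z) (fun b => a b z) := by
    intro j k
    rw [cHess_hN ha hH hh, ← quad_row, hDb, ← Matrix.add_apply]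
    refine congrFun (congrFun ?_ 0) 0
    rw [hDG]
    have e1 : (Dv k).conjTranspose = (A k).conjTranspose +
        G⁻¹ * (P k).conjTranspose * α.conjTranspose := by
      rw [hDv]
      simp only []
      rw [Matrix.conjTranspose_add, Matrix.conjTranspose_mul, Matrix.conjTranspose_mul, hGi,
        Matrix.mul_assoc]
    have e2 : Wm H j k z = DM j (DMb k H) z - P j * G⁻¹ * (P k).conjTranspose := rfl
    rw [e1, e2]
    show (A j * (P k).conjTranspose + α * DM j (DMb k H) z) * α.conjTranspose +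
      (A j * G + α * P j) * (A k).conjTranspose = _
    have e3 : A j * G * (G⁻¹ * (P k).conjTranspose * α.conjTranspose) =
        A j * (P k).conjTranspose * α.conjTranspose := by
      rw [Matrix.mul_assoc (A j) G, Matrix.mul_assoc G⁻¹, ← Matrix.mul_assoc G, hGG',
        Matrix.one_mul, Matrix.mul_assoc]
    rw [Matrix.mul_add, Matrix.add_mul, Matrix.add_mul (A j * G) (α * P j)
      (G⁻¹ * (P k).conjTranspose * α.conjTranspose), e3]
    simp only [Matrix.add_mul, Matrix.mul_sub, Matrix.sub_mul, Matrix.mul_assoc]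
    abel
  have hdz : ∀ j, dz j (fun y => ((hN a H y : ℝ) : ℂ)) z =
      (Dv j * G * α.conjTranspose) 0 0 := by
    intro j
    rw [dz_hN ha (hH.mono (by norm_num)) hh, hDG]
  have hN2 : ContDiffAt ℝ 2 (hN a H) z := smooth_hN ha hH (by exact le_top)
  have hNd : DifferentiableAt ℝ (hN a H) z := hN2.differentiableAt (by norm_num)
  have hdzb : ∀ k, dzb k (fun y => ((hN a H y : ℝ) : ℂ)) z =
      (α * G * (Dv k).conjTranspose) 0 0 := by
    intro k
    rw [C2.dzb_real k hNd, hdz]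
    have e1 : α * G * (Dv k).conjTranspose = (Dv k * G * α.conjTranspose).conjTranspose := by
      rw [Matrix.conjTranspose_mul, Matrix.conjTranspose_mul, Matrix.conjTranspose_conjTranspose,
        hGh, Matrix.mul_assoc]
    rw [e1, Matrix.conjTranspose_apply, RCLike.star_def]
  -- the square root
  obtain ⟨L, hL⟩ : ∃ L : Matrix (Fin N) (Fin N) ℂ, G = L * L.conjTranspose := by
    obtain ⟨T, U, η, -, hUT, hTU, h1, h2⟩ := QN.H327.exists_frame hpd Matrix.PosSemidef.zero
    exact ⟨T, h1⟩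
  have hsq : ∀ u v : Matrix (Fin 1) (Fin N) ℂ, ∑ i, (u * L) 0 i * cj ((v * L) 0 i) =
      (u * G * v.conjTranspose) 0 0 := by
    intro u v
    rw [row_mul, Matrix.conjTranspose_mul, hL]
    simp only [Matrix.mul_assoc]
  have hhN : 0 ≤ hN a H z := quad_nonneg hpd.posSemidef _
  have hnV : nsq (fun i => (α * L) 0 i) = hN a H z := by
    have h1 := nsq_cast (fun i => (α * L) 0 i)
    rw [hsq α α, ← hN_ofReal (a := a) hh.self_of_nhds] at h1
    exact_mod_cast h1
  have key := H949.GM.lagrange' (n := n) (fun i => (α * L) 0 i) hε (fun j i => (Dv j * L) 0 i)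
    (fun _ => 0)
  simp only [hsq, hnV, zero_mul, mul_zero, add_zero, cj, map_zero] at key
  set u : ℝ := hN a H z + ε with hu
  have hu0 : 0 < u := by positivity
  set X : Matrix (Fin n) (Fin n) ℂ := Matrix.of fun j k => quad (Wm H j k z) (fun b => a b z)
    with hX
  have hsum : cHess (fun y => Real.log (hN a H y + ε)) z + (C : ℂ) • (1 : Matrix (Fin n) (Fin n) ℂ) =
      (Matrix.of fun j k => ((u : ℝ) : ℂ)⁻¹ * (Dv j * G * (Dv k).conjTranspose) 0 0 -
        (((u : ℝ) : ℂ) ^ 2)⁻¹ * ((Dv j * G * α.conjTranspose) 0 0 *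
          (α * G * (Dv k).conjTranspose) 0 0)) +
      (((u⁻¹ : ℝ) : ℂ) • X + (C : ℂ) • (1 : Matrix (Fin n) (Fin n) ℂ)) := by
    rw [← add_assoc]
    congr 1
    ext j k
    have hu2 : ContDiffAt ℝ 2 (fun y => hN a H y + ε) z := hN2.add contDiffAt_const
    have hdN : DifferentiableAt ℝ (fun y => ((hN a H y : ℝ) : ℂ)) z :=
      C2.differentiableAt_ofReal hNd
    have hsplit : (fun y => ((hN a H y + ε : ℝ) : ℂ)) =
        fun y => ((hN a H y : ℝ) : ℂ) + (ε : ℂ) := by
      funext y; push_cast; ring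
    rw [C2.cHess_log hu2 hu0, hsplit, dz_add hdN (differentiableAt_const _),
      dzb_add hdN (differentiableAt_const _), dz_const, dzb_const, add_zero, add_zero, hdz, hdzb]
    have h1 : cHess (fun y => hN a H y + ε) z j k = cHess (hN a H) z j k := by
      have := congrFun (congrFun (cHess_add (f := hN a H) (g := fun _ => ε) hN2
        contDiffAt_const) j) k
      rw [this, C2.cHess_const]
      simp
    rw [h1, hess1]
    simp only [Matrix.add_apply, Matrix.of_apply, Matrix.smul_apply, smul_eq_mul, hX]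
    have hucast : ((u : ℝ) : ℂ) = ((hN a H z : ℝ) : ℂ) + (ε : ℂ) := by
      rw [hu]; push_cast; ring
    push_cast
    rw [hucast]
    ring
  rw [hsum]
  refine key.add ?_
  -- the remaining term
  have hXb : ∀ j k, ‖X j k‖ ≤ B * (N * (C₂ * hN a H z)) := by
    intro j k
    rw [hX, Matrix.of_apply]
    refine (quad_bound (hB j k) _).trans ?_
    exact mul_le_mul_of_nonneg_left (mul_le_mul_of_nonneg_left hlow (Nat.cast_nonneg _)) hB0
  have hXh : X.IsHermitian := by
    have h1 : (cHess (hN a H) z).IsHermitian := cHess_isHermitian hN2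
    have h2 : (Matrix.of fun j k => (Dv j * G * (Dv k).conjTranspose) 0 0 :
        Matrix (Fin n) (Fin n) ℂ).IsHermitian := by
      ext j k
      rw [Matrix.conjTranspose_apply, Matrix.of_apply, Matrix.of_apply]
      have e1 : Dv j * G * (Dv k).conjTranspose = (Dv k * G * (Dv j).conjTranspose).conjTranspose := by
        rw [Matrix.conjTranspose_mul, Matrix.conjTranspose_mul, Matrix.conjTranspose_conjTranspose,
          hGh, Matrix.mul_assoc]
      rw [e1, Matrix.conjTranspose_apply]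
    have h3 : X = cHess (hN a H) z -
        (Matrix.of fun j k => (Dv j * G * (Dv k).conjTranspose) 0 0) := by
      ext j k
      rw [Matrix.sub_apply, hess1, Matrix.of_apply, hX, Matrix.of_apply]
      ring
    rw [h3]
    exact h1.sub h2
  refine posSemidef_of_quad ?_ fun ξ => ?_
  · exact (herm_smul hXh _).add (herm_smul Matrix.isHermitian_one _)
  · rw [quad_add, quad_smulM, quad_smulM, Complex.add_re, Complex.re_ofReal_mul,
      Complex.re_ofReal_mul, quad_one]
    set s : ℝ := ∑ b, ‖ξ b‖ ^ 2 with hs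
    have hs0 : 0 ≤ s := Finset.sum_nonneg fun b _ => by positivity
    have h1 := quad_bound hXb ξ
    rw [← hs] at h1
    have h2 := (abs_le.1 (Complex.abs_re_le_norm (quad X ξ))).1
    have h3 : -(B * (N * (C₂ * hN a H z)) * (n * s)) ≤ (quad X ξ).re := by linarith
    have h4 : u⁻¹ * hN a H z ≤ 1 := by
      rw [inv_mul_le_iff₀ hu0, mul_one, hu]; linarith
    have h5 : u⁻¹ * -(B * (N * (C₂ * hN a H z)) * (n * s)) ≤ u⁻¹ * (quad X ξ).re :=
      mul_le_mul_of_nonneg_left h3 (by positivity)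
    have h6 : (u⁻¹ * hN a H z) * (B * (N * C₂) * n * s) ≤ 1 * (B * (N * C₂) * n * s) :=
      mul_le_mul_of_nonneg_right h4 (by positivity)
    have h7 : B * (N * C₂) * n * s ≤ C * s := mul_le_mul_of_nonneg_right hC hs0
    have h8 : u⁻¹ * -(B * (N * (C₂ * hN a H z)) * (n * s)) =
        -((u⁻¹ * hN a H z) * (B * (N * C₂) * n * s)) := by ring
    linarith

/-- **Local lower bound.** -/
theorem exists_log_hN {z₀ : Cm n} (ha : ∀ b, AnalyticAt ℂ (a b) z₀) (hH : MC ∞ H z₀)
    (hh : ∀ᶠ y in 𝓝 z₀, (H y).IsHermitian) (hpd : (H z₀).PosDef) :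
    ∃ C : ℝ, 0 ≤ C ∧ ∀ᶠ z in 𝓝 z₀, ∀ ε : ℝ, 0 < ε →
      (cHess (fun y => Real.log (hN a H y + ε)) z + (C : ℂ) • 1).PosSemidef := by
  obtain ⟨C₂, hC₂, h1⟩ := exists_lower (fun b c => (hH b c).continuousAt) hpd
  obtain ⟨B, hB, h2⟩ := exists_W_bound hH hpd.det_pos.ne'
  refine ⟨B * (N * C₂) * n, by positivity, ?_⟩
  have h3 : ∀ᶠ y in 𝓝 z₀, MC 2 H y :=
    MC.eventually (q := 2) (hH.mono (by exact WithTop.coe_le_coe.2 le_top))
  filter_upwards [h1, h2, ev_an ha, h3, hh.eventually_nhds] with z k1 k2 k3 k4 k5 ε hε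
  have hpz : (H z).PosDef := by
    refine posDef_of_quad k5.self_of_nhds fun ξ hξ => ?_
    have h4 := k1 ξ
    have h5 : 0 < ∑ b, ‖ξ b‖ ^ 2 := nsq_pos hξ
    by_contra hneg
    push Not at hneg
    have := mul_nonpos_of_nonneg_of_nonpos hC₂.le hneg
    linarith
  exact log_hN_psd k3 k4 k5 hpz hε k2 hB hC₂.le (k1 _) le_rfl

end Vale.Agent.P281.H455.KD
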